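import Vale.Agent.N108X.Main

/-!
# P108: an explicit range of parameters of positive entropy, and the size of the entropy
-/

open MeasureTheory Filter Topology

namespace Vale.Agent.Results.P108.A0Explicit

open Vale.Agent.N108X

/-- For every `k` with `|k| ≥ exp (10 ^ 11)` the metric entropy of the standard map is positive,
finite and equal to `log (π |k|)` up to `|k| ^ (-1 / 50000)`; the exponent `λ₊` (integrable, and a
limit almost everywhere) is that close to `log (π |k|)` in `L¹`, and it vanishes on a set of at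
most that area. -/
theorem result (k : ℝ) (hk : Real.exp (10 ^ 11) ≤ |k|) :
    (0 < entropy volume (std k) ∧ entropy volume (std k) < ⊤ ∧
      |(entropy volume (std k)).toReal - Real.log (Real.pi * |k|)| ≤ |k| ^ (-(1 / 50000) : ℝ)) ∧
    Integrable (expo k) ∧ (∀ᵐ p, Tendsto (grow k p) atTop (𝓝 (expo k p))) ∧
      ∫ p, |expo k p - Real.log (Real.pi * |k|)| ≤ |k| ^ (-(1 / 50000) : ℝ) ∧
      volume.real {p | expo k p = 0} ≤ |k| ^ (-(1 / 50000) : ℝ) :=
  have h := explicit hk
  have s := (sound k).2.2.2
  ⟨⟨h.1, h.2.1, h.2.2.1⟩, s.1, s.2, h.2.2.2⟩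

end Vale.Agent.Results.P108.A0Explicit
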